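import Vale.Agent.Lib.P012.helper17.Final

/-- There is an absolute constant `C` such that for all integers `1 ≤ a < b` with `b ≥ 16`
the fraction `a / b` is a sum of at most `C * log log b * log log log b` distinct unit
fractions with denominators at least `2`, that is
`N(b) ≤ C * log log b * log log log b`. -/
theorem Vale.Agent.Results.P012.LogLogLogLog.result :
    ∃ C : ℝ, ∀ a b : ℕ, 0 < a → a < b → 16 ≤ b →
      ∃ S : Finset ℕ, (∀ n ∈ S, 2 ≤ n) ∧
        (S.card : ℝ) ≤ C * Real.log (Real.log b) * Real.log (Real.log (Real.log b)) ∧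
        ∑ n ∈ S, (1 / (n : ℚ)) = (a : ℚ) / b :=
  Vale.Agent.Lib.P012.main_upgrade
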